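import Mathlib
import Vale.Agent.P118.OF.R2S

/-!
P065, upper bound, block AC-(1): Balog-Szemeredi-Gowers for every multiplier, one set for a dense
family of multipliers, Ruzsa calculus.  Scale free: `n` is the number of cells at resolution `δ`,
`K` the loss.
-/

namespace Vale.Agent.P065.H17

open Finset
open scoped Pointwise
open Vale.Agent.P118.OF (Cov Sep)
open Vale.Agent.P118.H611 (E cel bx mem_bx card_bx hh mem_hh cel_smul)
open Vale.Agent.P118.H884 (bsg_sum pigeon card_le_mul_image cel_near cov_of_cells ruzsa_chainS)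

/-- the line as `E 1` -/
noncomputable def em (x : ℝ) : E 1 := WithLp.toLp 2 (fun _ => x)

@[simp] lemma em_apply (x : ℝ) (i : Fin 1) : em x i = x := rfl

lemma em_inj : Function.Injective em := fun x y h => by
  have := congrArg (fun v : E 1 => v 0) h
  simpa using this

lemma smul_em (a x : ℝ) : a • em x = em (a * x) := by
  ext i
  rfl

lemma add_em (x y : ℝ) : em x + em y = em (x + y) := by
  ext i
  rfl

lemma sub_em (x y : ℝ) : em x - em y = em (x - y) := by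
  ext i
  rfl

lemma dist_em_left (x : ℝ) (v : E 1) : dist (em x) v = |x - v 0| := by
  rw [EuclideanSpace.dist_eq]
  simp [Real.dist_eq, Real.sqrt_sq_eq_abs]

lemma dist_em (x y : ℝ) : dist (em x) (em y) = |x - y| := by
  rw [dist_em_left]
  rfl

/-- a separated set of reals in a short interval -/
lemma card_sep {δ l : ℝ} (hδ : 0 < δ) (hl0 : 0 ≤ l) {P : Finset ℝ}
    (hP : Sep δ P) (hl : ∀ x ∈ P, ∀ y ∈ P, |x - y| ≤ l) : (P.card : ℝ) ≤ l / δ + 2 := by
  classical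
  rcases P.eq_empty_or_nonempty with h1 | hne
  · rw [h1]
    simp only [Finset.card_empty, Nat.cast_zero]
    positivity
  · obtain ⟨x₀, hx₀, hmin⟩ := P.exists_min_image id hne
    have hinj : Set.InjOn (fun x : ℝ => ⌊x / δ⌋) P := by
      intro x hx y hy hxy
      by_contra hne
      have h2 := hP x hx y hy hne
      rw [Real.dist_eq] at h2
      have h3 := Int.abs_sub_lt_one_of_floor_eq_floor hxy
      rw [← sub_div, abs_div, abs_of_pos hδ, div_lt_one hδ] at h3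
      linarith
    have hmaps : P.image (fun x : ℝ => ⌊x / δ⌋) ⊆ Finset.Icc ⌊x₀ / δ⌋ ⌊(x₀ + l) / δ⌋ := by
      intro k hk
      obtain ⟨x, hx, rfl⟩ := Finset.mem_image.1 hk
      have h2 := hmin x hx
      have h3 := (abs_le.1 (hl x hx x₀ hx₀)).2
      rw [Finset.mem_Icc]
      simp only [id_eq] at h2
      constructor
      · exact Int.floor_le_floor (by gcongr)
      · refine Int.floor_le_floor ?_
        gcongr
        linarith
    have h4 : P.card ≤ (Finset.Icc ⌊x₀ / δ⌋ ⌊(x₀ + l) / δ⌋).card := by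
      rw [← Finset.card_image_of_injOn hinj]
      exact Finset.card_le_card hmaps
    rw [Int.card_Icc] at h4
    have h5 : ((⌊(x₀ + l) / δ⌋ + 1 - ⌊x₀ / δ⌋).toNat : ℝ) ≤ l / δ + 2 := by
      have f1 := Int.floor_le ((x₀ + l) / δ)
      have f2 := Int.lt_floor_add_one (x₀ / δ)
      have f3 : ((⌊(x₀ + l) / δ⌋ + 1 - ⌊x₀ / δ⌋ : ℤ) : ℝ) ≤ l / δ + 2 := by
        push_cast
        have : (x₀ + l) / δ = x₀ / δ + l / δ := by ring
        linarith
      have h0 : 0 ≤ ⌊(x₀ + l) / δ⌋ + 1 - ⌊x₀ / δ⌋ := by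
        have : ⌊x₀ / δ⌋ ≤ ⌊(x₀ + l) / δ⌋ := Int.floor_le_floor (by gcongr; linarith)
        omega
      have h6 : (((⌊(x₀ + l) / δ⌋ + 1 - ⌊x₀ / δ⌋).toNat : ℤ) : ℝ)
          = ((⌊(x₀ + l) / δ⌋ + 1 - ⌊x₀ / δ⌋ : ℤ) : ℝ) := by
        rw [Int.toNat_of_nonneg h0]
      have h7 : ((⌊(x₀ + l) / δ⌋ + 1 - ⌊x₀ / δ⌋).toNat : ℝ)
          = (((⌊(x₀ + l) / δ⌋ + 1 - ⌊x₀ / δ⌋).toNat : ℤ) : ℝ) := by norm_cast
      rw [h7, h6]
      exact f3
    calc (P.card : ℝ) ≤ ((⌊(x₀ + l) / δ⌋ + 1 - ⌊x₀ / δ⌋).toNat : ℝ) := by exact_mod_cast h4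
      _ ≤ _ := h5

/-- fibres of the cell map on a separated set of reals -/
lemma fib {δ K a : ℝ} (hδ : 0 < δ) (hK : 4 ≤ K) (ha : 1 ≤ K * |a|) {P : Finset ℝ} (hP : Sep δ P)
    (γ : Fin 1 → ℤ) [DecidablePred (fun x : ℝ => cel (δ / 2) (a • em x) = γ)] :
    ((P.filter (fun x => cel (δ / 2) (a • em x) = γ)).card : ℝ) ≤ K := by
  have ha0 : 0 < |a| := by
    by_contra hcon
    have : |a| = 0 := le_antisymm (not_lt.1 hcon) (abs_nonneg _)
    rw [this, mul_zero] at ha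
    linarith
  have h1 := card_sep (l := K * (δ / 2)) (P := P.filter (fun x => cel (δ / 2) (a • em x) = γ)) hδ
    (by positivity) (fun x hx y hy hxy => hP x (Finset.mem_filter.1 hx).1 y (Finset.mem_filter.1 hy).1 hxy)
    (by
      intro x hx y hy
      have h2 := (Finset.mem_filter.1 hx).2.trans (Finset.mem_filter.1 hy).2.symm
      have h3 : ⌊a * x / (δ / 2)⌋ = ⌊a * y / (δ / 2)⌋ := congrFun h2 0
      have h4 := Int.abs_sub_lt_one_of_floor_eq_floor h3
      rw [← sub_div, abs_div, abs_of_pos (by positivity : (0 : ℝ) < δ / 2),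
        div_lt_one (by positivity), ← mul_sub, abs_mul] at h4
      have h5 : |x - y| ≤ K * |a| * |x - y| := le_mul_of_one_le_left (abs_nonneg _) ha
      calc |x - y| ≤ K * |a| * |x - y| := h5
        _ = K * (|a| * |x - y|) := by ring
        _ ≤ K * (δ / 2) := by gcongr)
  refine h1.trans ?_
  have h6 : K * (δ / 2) / δ = K / 2 := by field_simp
  rw [h6]
  linarith

/-- the Balog-Szemeredi-Gowers step for one multiplier -/
lemma bsg_one {δ K n a : ℝ} {B H : Finset ℝ} {G : Finset (ℝ × ℝ)} (hδ : 0 < δ) (hK : 3072 ≤ K)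
    (hn : 0 < n) (ha : 1 ≤ K * |a|) (hB : Sep δ B) (hH : Sep δ H) (hBc : (B.card : ℝ) ≤ K * n)
    (hHc : (H.card : ℝ) ≤ K * n) (hG : ∀ p ∈ G, p.1 ∈ B ∧ p.2 ∈ H) (hGc : n ^ 2 ≤ K * G.card)
    (hcov : Cov δ (K * n) {z : ℝ | ∃ p ∈ G, z = p.1 + a * p.2}) :
    ∃ X ⊆ B, ∃ Y ⊆ H, (B.card : ℝ) ≤ K ^ 4 * X.card ∧ (H.card : ℝ) ≤ K ^ 4 * Y.card ∧
      n * n ≤ K * (B.card * H.card) ∧
      (#(hh (X.image em) (δ / 2) 1 + hh (Y.image em) (δ / 2) a) : ℝ) ≤ K ^ 25 * n := by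
  classical
  have hK1 : 1 ≤ K := by linarith
  have hK0 : 0 < K := by linarith
  obtain ⟨Z, hZc, hZ⟩ := hcov
  have hGsub : G ⊆ B ×ˢ H := fun p hp => Finset.mem_product.2 ⟨(hG p hp).1, (hG p hp).2⟩
  have hGcard : (G.card : ℝ) ≤ B.card * H.card := by
    have := Finset.card_le_card hGsub
    rw [Finset.card_product] at this
    exact_mod_cast this
  have hBH : n * n ≤ K * (B.card * H.card) := by
    calc n * n = n ^ 2 := by ring
      _ ≤ K * G.card := hGc
      _ ≤ _ := by gcongr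
  have hGpos : (0 : ℝ) < G.card := by
    by_contra hcon
    have h3 : (G.card : ℝ) = 0 := le_antisymm (not_lt.1 hcon) (by positivity)
    rw [h3, mul_zero] at hGc
    have : 0 < n ^ 2 := by positivity
    linarith
  have hGne : G.Nonempty := by
    rw [← Finset.card_pos]
    exact_mod_cast hGpos
  obtain ⟨p0, hp0⟩ := hGne
  have hBne : B.Nonempty := ⟨_, (hG p0 hp0).1⟩
  have hHne : H.Nonempty := ⟨_, (hG p0 hp0).2⟩
  have hfilt : ((B ×ˢ H).filter (fun p => (p.1, p.2) ∈ G)) = G := by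
    ext p
    simp only [Finset.mem_filter]
    exact ⟨fun h => h.2, fun h => ⟨hGsub h, h⟩⟩
  have he : (0 : ℝ) < δ / 2 := by positivity
  have hS : ∀ x ∈ B, ∀ y ∈ H, (x, y) ∈ G →
      cel (δ / 2) ((1 : ℝ) • em x) + cel (δ / 2) (a • em y) ∈ hh (Z.image em) (δ / 2) 1 + bx 1 (4 : ℕ) := by
    intro x _ y _ hxy
    obtain ⟨v', hv', hd⟩ := hZ _ ⟨(x, y), hxy, rfl⟩
    rw [Finset.mem_add]
    refine ⟨cel (δ / 2) ((1 : ℝ) • em v'), mem_hh.2 ⟨em v', Finset.mem_image_of_mem _ hv', rfl⟩,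
      cel (δ / 2) (em x) + cel (δ / 2) (a • em y) - cel (δ / 2) (em v'),
      cel_near (C := 1) (M := 4) he (by push_cast; ring) ?_ (by norm_num), ?_⟩
    · rw [smul_em, add_em, dist_em, one_mul]
      rw [Real.dist_eq] at hd
      exact hd
    · rw [one_smul, one_smul]
      abel
  have hScard : (#(hh (Z.image em) (δ / 2) 1 + bx 1 (4 : ℕ)) : ℝ) ≤ K ^ 2 * n := by
    have h2 : #(hh (Z.image em) (δ / 2) 1 + bx 1 (4 : ℕ))
        ≤ #(hh (Z.image em) (δ / 2) 1) * #(bx 1 ((4 : ℕ) : ℤ)) := Finset.card_add_le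
    have h3 : #(hh (Z.image em) (δ / 2) 1) ≤ Z.card :=
      Finset.card_image_le.trans Finset.card_image_le
    calc (#(hh (Z.image em) (δ / 2) 1 + bx 1 (4 : ℕ)) : ℝ)
        ≤ #(hh (Z.image em) (δ / 2) 1) * #(bx 1 ((4 : ℕ) : ℤ)) := by exact_mod_cast h2
      _ ≤ Z.card * (2 * ((4 : ℕ) : ℝ) + 1) ^ 1 := by
          rw [card_bx]
          push_cast
          gcongr
          norm_num
      _ ≤ (K * n) * K := by
          gcongr
          push_cast
          linarith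
      _ = _ := by ring
  obtain ⟨X, hX, Y, hY, hXc, hYc, hsum⟩ := bsg_sum B H (fun v => cel (δ / 2) ((1 : ℝ) • em v))
    (fun v => cel (δ / 2) (a • em v)) (hh (Z.image em) (δ / 2) 1 + bx 1 (4 : ℕ))
    (fun x y => (x, y) ∈ G) (K ^ 3) K K (one_le_pow₀ hK1) hBne hHne
    (fun γ => fib hδ (by linarith) (by rw [abs_one]; linarith) hB γ)
    (fun γ => fib hδ (by linarith) ha hH γ) hS (by
      rw [hfilt]
      calc (B.card : ℝ) * H.card ≤ (K * n) * (K * n) := by gcongr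
        _ = K ^ 2 * n ^ 2 := by ring
        _ ≤ K ^ 2 * (K * G.card) := by gcongr
        _ = _ := by ring)
  have e1 : hh (X.image em) (δ / 2) 1 = X.image (fun v => cel (δ / 2) ((1 : ℝ) • em v)) := by
    unfold hh
    rw [Finset.image_image]
    rfl
  have e2 : hh (Y.image em) (δ / 2) a = Y.image (fun v => cel (δ / 2) (a • em v)) := by
    unfold hh
    rw [Finset.image_image]
    rfl
  rw [← e1, ← e2] at hsum
  refine ⟨X, hX, Y, hY, ?_, ?_, hBH, ?_⟩
  · calc (B.card : ℝ) ≤ 6 * K ^ 3 * X.card := hXc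
      _ ≤ K * K ^ 3 * X.card := by gcongr; linarith
      _ = _ := by ring
  · calc (H.card : ℝ) ≤ 4 * K ^ 3 * Y.card := hYc
      _ ≤ K * K ^ 3 * Y.card := by gcongr; linarith
      _ = _ := by ring
  · have h4 : n * n * (#(hh (X.image em) (δ / 2) 1 + hh (Y.image em) (δ / 2) a) : ℝ)
        ≤ n * n * (K ^ 25 * n) := by
      calc n * n * (#(hh (X.image em) (δ / 2) 1 + hh (Y.image em) (δ / 2) a) : ℝ)
          ≤ (K * (B.card * H.card)) * (#(hh (X.image em) (δ / 2) 1 + hh (Y.image em) (δ / 2) a) : ℝ) :=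
            mul_le_mul_of_nonneg_right hBH (Nat.cast_nonneg _)
        _ = K * ((B.card : ℝ) * H.card * (#(hh (X.image em) (δ / 2) 1 + hh (Y.image em) (δ / 2) a) : ℝ)) := by
            ring
        _ ≤ K * (3072 * (K ^ 3) ^ 5 * (K * K) * (#(hh (Z.image em) (δ / 2) 1 + bx 1 (4 : ℕ)) : ℝ) ^ 3) :=
            mul_le_mul_of_nonneg_left hsum hK0.le
        _ ≤ K * (K * (K ^ 3) ^ 5 * (K * K) * (K ^ 2 * n) ^ 3) := by gcongr
        _ = n * n * (K ^ 25 * n) := by ring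
    exact le_of_mul_le_mul_left h4 (by positivity)

/-- sizes of the intersections -/
lemma inter {K n b h x y : ℝ} (hK1 : 1 ≤ K) (hK2 : 2 ≤ K) (hb : 0 < b) (hh0 : 0 < h) (hx0 : 0 ≤ x)
    (hy0 : 0 ≤ y) (hnb : n ≤ K ^ 2 * b) (hnh : n ≤ K ^ 2 * h) (hxb : x ≤ b) (hyh : y ≤ h)
    (hU : b * h ≤ 2 * (K ^ 8) ^ 2 * (x * y)) : n ≤ K ^ 19 * x ∧ n ≤ K ^ 19 * y := by
  have hK0 : 0 < K := by linarith
  have hU' : b * h ≤ K ^ 17 * (x * y) := by
    refine hU.trans ?_
    calc 2 * (K ^ 8) ^ 2 * (x * y) ≤ K * (K ^ 8) ^ 2 * (x * y) := by gcongr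
      _ = _ := by ring
  constructor
  · have h1 : b ≤ K ^ 17 * x := by
      have : b * h ≤ (K ^ 17 * x) * h := by
        calc b * h ≤ K ^ 17 * (x * y) := hU'
          _ ≤ K ^ 17 * (x * h) := by gcongr
          _ = _ := by ring
      exact le_of_mul_le_mul_right this hh0
    calc n ≤ K ^ 2 * b := hnb
      _ ≤ K ^ 2 * (K ^ 17 * x) := by gcongr
      _ = _ := by ring
  · have h1 : h ≤ K ^ 17 * y := by
      have : h * b ≤ (K ^ 17 * y) * b := by
        calc h * b = b * h := by ring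
          _ ≤ K ^ 17 * (x * y) := hU'
          _ ≤ K ^ 17 * (b * y) := by gcongr
          _ = _ := by ring
      exact le_of_mul_le_mul_right this hb
    calc n ≤ K ^ 2 * h := hnh
      _ ≤ K ^ 2 * (K ^ 17 * y) := by gcongr
      _ = _ := by ring

lemma image_em_inter (X Y : Finset ℝ) : (X ∩ Y).image em ⊆ X.image em :=
  Finset.image_subset_image Finset.inter_subset_left

/-- number of cells of a separated set -/
lemma card_hh {δ K a : ℝ} (hδ : 0 < δ) (hK : 4 ≤ K) (ha : 1 ≤ K * |a|) {P : Finset ℝ}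
    (hP : Sep δ P) : (P.card : ℝ) ≤ K * #(hh (P.image em) (δ / 2) a) := by
  classical
  have e1 : hh (P.image em) (δ / 2) a = P.image (fun v => cel (δ / 2) (a • em v)) := by
    unfold hh
    rw [Finset.image_image]
    rfl
  rw [e1]
  exact card_le_mul_image _ _ _ (fun γ => fib hδ hK ha hP γ)

lemma sep_mono {δ : ℝ} {P Q : Finset ℝ} (h : Sep δ Q) (hPQ : P ⊆ Q) : Sep δ P :=
  fun x hx y hy => h x (hPQ hx) y (hPQ hy)

/-- covering of `aY - bY` on the line -/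
lemma cov_line (Y : Finset ℝ) {δ a b N : ℝ} (hδ : 0 < δ)
    (h : (#(hh (Y.image em) (δ / 2) a - hh (Y.image em) (δ / 2) b) : ℝ) ≤ N) :
    Cov δ N {z : ℝ | ∃ x ∈ Y, ∃ y ∈ Y, z = a * x - b * y} := by
  classical
  obtain ⟨Z, hZ1, hZ2⟩ := cov_of_cells (Y.image em) (e := δ / 2) (δ := δ) (a := a) (b := b) (N := N)
    (by positivity) (by push_cast; ring) h
  refine ⟨Z.image (fun v => v 0), le_trans (by exact_mod_cast Finset.card_image_le) hZ1, ?_⟩
  rintro z ⟨x, hx, y, hy, rfl⟩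
  obtain ⟨w, hw, hd⟩ := hZ2 (em (a * x - b * y)) ⟨em x, Finset.mem_image_of_mem _ hx, em y,
    Finset.mem_image_of_mem _ hy, by rw [smul_em, smul_em, sub_em]⟩
  refine ⟨w 0, Finset.mem_image_of_mem _ hw, ?_⟩
  rw [dist_em_left] at hd
  rw [Real.dist_eq]
  exact hd

/-- **AC-(1)**: Balog-Szemeredi-Gowers for every multiplier `a`, one set `X` for a dense family `A'`
of multipliers, and the Ruzsa calculus. -/
theorem ac1 : ∃ C : ℕ, ∀ (K n δ : ℝ) (A B H : Finset ℝ) (G : ℝ → Finset (ℝ × ℝ)),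
    3072 ≤ K → 0 < δ → 0 < n → A.Nonempty → (∀ a ∈ A, 1 ≤ K * |a| ∧ |a| ≤ K) →
    Sep δ B → Sep δ H → (B.card : ℝ) ≤ K * n → (H.card : ℝ) ≤ K * n →
    (∀ a ∈ A, (∀ p ∈ G a, p.1 ∈ B ∧ p.2 ∈ H) ∧ n ^ 2 ≤ K * (G a).card ∧
      Cov δ (K * n) {z : ℝ | ∃ p ∈ G a, z = p.1 + a * p.2}) →
    ∃ A' ⊆ A, ∃ X ⊆ H, (A.card : ℝ) ≤ K ^ C * A'.card ∧ n ≤ K ^ C * X.card ∧
      ∀ a ∈ A', ∀ b ∈ A', Cov δ (K ^ C * n) {z : ℝ | ∃ x ∈ X, ∃ y ∈ X, z = a * x - b * y} := by
  classical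
  refine ⟨346, ?_⟩
  intro K n δ A B H G hK hδ hn hA hAa hB hH hBc hHc hG
  have hK1 : 1 ≤ K := by linarith
  have hK4 : 4 ≤ K := by linarith
  have hK0 : 0 < K := by linarith
  have hstep : ∀ a ∈ A, ∃ X ⊆ B, ∃ Y ⊆ H, (B.card : ℝ) ≤ K ^ 4 * X.card ∧
      (H.card : ℝ) ≤ K ^ 4 * Y.card ∧ n * n ≤ K * (B.card * H.card) ∧
      (#(hh (X.image em) (δ / 2) 1 + hh (Y.image em) (δ / 2) a) : ℝ) ≤ K ^ 25 * n :=
    fun a ha => bsg_one hδ hK hn (hAa a ha).1 hB hH hBc hHc (hG a ha).1 (hG a ha).2.1 (hG a ha).2.2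
  choose! X hX Y hY hXc hYc hBH hsum using hstep
  obtain ⟨a₁, ha₁⟩ := id hA
  have hBH1 := hBH a₁ ha₁
  have hnB : n ≤ K ^ 2 * B.card := by
    have : n * n ≤ (K ^ 2 * B.card) * n := by
      calc n * n ≤ K * (B.card * H.card) := hBH1
        _ ≤ K * (B.card * (K * n)) := by gcongr
        _ = _ := by ring
    exact le_of_mul_le_mul_right this hn
  have hnH : n ≤ K ^ 2 * H.card := by
    have : n * n ≤ (K ^ 2 * H.card) * n := by
      calc n * n ≤ K * (B.card * H.card) := hBH1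
        _ ≤ K * ((K * n) * H.card) := by gcongr
        _ = _ := by ring
    exact le_of_mul_le_mul_right this hn
  have hB0pos : (0 : ℝ) < B.card := by
    by_contra hcon
    have h3 : (B.card : ℝ) = 0 := le_antisymm (not_lt.1 hcon) (Nat.cast_nonneg _)
    rw [h3, mul_zero] at hnB
    linarith
  have hH0pos : (0 : ℝ) < H.card := by
    by_contra hcon
    have h3 : (H.card : ℝ) = 0 := le_antisymm (not_lt.1 hcon) (Nat.cast_nonneg _)
    rw [h3, mul_zero] at hnH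
    linarith
  obtain ⟨a₀, ha₀, hA2⟩ := pigeon A hA (B ×ˢ H) (fun a => X a ×ˢ Y a)
    (fun a ha => Finset.product_subset_product (hX a ha) (hY a ha)) (K ^ 8) (one_le_pow₀ hK1)
    (fun a ha => by
      rw [Finset.card_product, Finset.card_product]
      push_cast
      calc (B.card : ℝ) * H.card ≤ (K ^ 4 * (X a).card) * (K ^ 4 * (Y a).card) :=
            mul_le_mul (hXc a ha) (hYc a ha) (Nat.cast_nonneg _) (by positivity)
        _ = _ := by ring)
  have hK17 : 2 * (K ^ 8) ^ 2 ≤ K ^ 17 := by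
    calc 2 * (K ^ 8) ^ 2 ≤ K * (K ^ 8) ^ 2 := by gcongr; linarith
      _ = _ := by ring
  have hpow : ∀ k : ℕ, k ≤ 346 → K ^ k ≤ K ^ 346 := fun k hk => pow_le_pow_right₀ hK1 hk
  have hnY : n ≤ K ^ 6 * (Y a₀).card := by
    calc n ≤ K ^ 2 * H.card := hnH
      _ ≤ K ^ 2 * (K ^ 4 * (Y a₀).card) := by
          gcongr
          exact hYc a₀ ha₀
      _ = _ := by ring
  refine ⟨_, Finset.filter_subset _ _, Y a₀, hY a₀ ha₀,
    hA2.trans (mul_le_mul_of_nonneg_right (hK17.trans (hpow 17 (by norm_num))) (Nat.cast_nonneg _)),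
    hnY.trans (mul_le_mul_of_nonneg_right (hpow 6 (by norm_num)) (Nat.cast_nonneg _)), ?_⟩
  -- data
  have hdata : ∀ a ∈ A.filter (fun a => ((B ×ˢ H).card : ℝ) ≤ 2 * (K ^ 8) ^ 2 *
      (((X a ×ˢ Y a) ∩ (X a₀ ×ˢ Y a₀)).card : ℝ)), a ∈ A ∧
      (n ≤ K ^ 20 * #(hh ((X a ∩ X a₀).image em) (δ / 2) 1) ∧
      n ≤ K ^ 20 * #(hh ((Y a ∩ Y a₀).image em) (δ / 2) a)) ∧
      (#(hh ((X a ∩ X a₀).image em) (δ / 2) 1 + hh ((Y a ∩ Y a₀).image em) (δ / 2) a) : ℝ)
        ≤ K ^ 25 * n := by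
    intro a haA'
    obtain ⟨haA, hU⟩ := Finset.mem_filter.1 haA'
    rw [Finset.product_inter_product, Finset.card_product, Finset.card_product] at hU
    push_cast at hU
    have hI := inter (x := ((X a ∩ X a₀).card : ℝ)) (y := ((Y a ∩ Y a₀).card : ℝ)) hK1
      (by linarith) hB0pos hH0pos (Nat.cast_nonneg _) (Nat.cast_nonneg _) hnB hnH
      (by exact_mod_cast Finset.card_le_card (Finset.inter_subset_left.trans (hX a haA)))
      (by exact_mod_cast Finset.card_le_card (Finset.inter_subset_left.trans (hY a haA))) hU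
    refine ⟨haA, ⟨?_, ?_⟩, ?_⟩
    · have h1 := card_hh (a := 1) hδ hK4 (by rw [abs_one]; linarith)
        (sep_mono hB (Finset.inter_subset_left.trans (hX a haA)) : Sep δ (X a ∩ X a₀))
      calc n ≤ K ^ 19 * (X a ∩ X a₀).card := hI.1
        _ ≤ K ^ 19 * (K * #(hh ((X a ∩ X a₀).image em) (δ / 2) 1)) := by gcongr
        _ = _ := by ring
    · have h1 := card_hh (a := a) hδ hK4 (hAa a haA).1
        (sep_mono hH (Finset.inter_subset_left.trans (hY a haA)) : Sep δ (Y a ∩ Y a₀))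
      calc n ≤ K ^ 19 * (Y a ∩ Y a₀).card := hI.2
        _ ≤ K ^ 19 * (K * #(hh ((Y a ∩ Y a₀).image em) (δ / 2) a)) := by gcongr
        _ = _ := by ring
    · refine le_trans ?_ (hsum a haA)
      exact_mod_cast Finset.card_le_card (Finset.add_subset_add
        (Finset.image_subset_image (Finset.image_subset_image Finset.inter_subset_left))
        (Finset.image_subset_image (Finset.image_subset_image Finset.inter_subset_left)))
  have hl5 : n ≤ K ^ 20 * #(hh ((Y a₀).image em) (δ / 2) a₀) := by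
    have h6 := card_hh (a := a₀) hδ hK4 (hAa a₀ ha₀).1 (sep_mono hH (hY a₀ ha₀) : Sep δ (Y a₀))
    calc n ≤ K ^ 6 * (Y a₀).card := hnY
      _ ≤ K ^ 6 * (K * #(hh ((Y a₀).image em) (δ / 2) a₀)) := by gcongr
      _ = K ^ 7 * #(hh ((Y a₀).image em) (δ / 2) a₀) := by ring
      _ ≤ K ^ 20 * #(hh ((Y a₀).image em) (δ / 2) a₀) := by
          gcongr
          norm_num
  intro a ha b hb
  obtain ⟨haA, ⟨da1, da2⟩, da3⟩ := hdata a ha
  obtain ⟨hbA, ⟨db1, db2⟩, db3⟩ := hdata b hb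
  refine cov_line _ hδ ?_
  have hfin := ruzsa_chainS (D := 1) (e := δ / 2) (L := K) (n := n) (t := 25) (r := 20)
    (by positivity) (by linarith : (15 : ℝ) ≤ K) hn ((X a₀).image em) ((Y a₀).image em)
      a₀ a b (hAa a₀ ha₀).1 (hAa a haA).2 ((X a ∩ X a₀).image em) ((Y a ∩ Y a₀).image em)
      ((X b ∩ X a₀).image em) ((Y b ∩ Y a₀).image em)
      (Finset.image_subset_image Finset.inter_subset_right)
      (Finset.image_subset_image Finset.inter_subset_right)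
      (Finset.image_subset_image Finset.inter_subset_right)
      (Finset.image_subset_image Finset.inter_subset_right) (hAa b hbA).2
      (hsum a₀ ha₀) da3 db3 da1 db1 da2 db2 hl5
  exact hfin

end Vale.Agent.P065.H17
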