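import Mathlib
import Vale.Agent.P065.H17.AC1

/-!
P065, upper bound: Pluennecke-Ruzsa on the line at one resolution `r`, with one multiplier `a`.
-/

namespace Vale.Agent.P065.H17

open Finset
open scoped Pointwise
open Vale.Agent.P118.OF (Cov Sep)
open Vale.Agent.P118.H884 (card_le_mul_image)

/-- Pluennecke-Ruzsa for `2S - 2S`, real numbers -/
lemma plue (S : Finset ℤ) (hS : S.Nonempty) :
    (#(2 • S - 2 • S) : ℝ) ≤ ((#(S - S) : ℝ) / #S) ^ 4 * #S := by
  have h := Finset.pluennecke_ruzsa_inequality_nsmul_sub_nsmul_sub hS S 2 2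
  have h' : ((#(2 • S - 2 • S) : ℚ≥0) : ℝ) ≤ ((((#(S - S) : ℚ≥0) / #S) ^ (2 + 2) * #S : ℚ≥0) : ℝ) := by
    exact_mod_cast h
  push_cast at h'
  exact h'

/-- **(PL)** -/
theorem pl : ∃ C : ℕ, ∀ (K n r a : ℝ) (X : Finset ℝ), 3072 ≤ K → 0 < r → 0 < n →
    1 ≤ K * |a| → |a| ≤ K → Sep r X → n ≤ K * X.card → (X.card : ℝ) ≤ K * n →
    Cov r (K * n) {z : ℝ | ∃ x ∈ X, ∃ y ∈ X, z = a * x - a * y} →
    Cov r (K ^ C * n) {z : ℝ | ∃ x ∈ X, ∃ y ∈ X, ∃ u ∈ X, ∃ v ∈ X, z = x + y - u - v} := by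
  classical
  refine ⟨23, ?_⟩
  intro K n r a X hK hr hn ha1 ha2 hX hX1 hX2 hcov
  have hK1 : 1 ≤ K := by linarith
  have hK0 : 0 < K := by linarith
  have ha0 : 0 < |a| := by
    by_contra hcon
    have : |a| = 0 := le_antisymm (not_lt.1 hcon) (abs_nonneg _)
    rw [this, mul_zero] at ha1
    linarith
  have hane : a ≠ 0 := abs_pos.1 ha0
  have hXpos : (0 : ℝ) < X.card := by
    by_contra hcon
    have h3 : (X.card : ℝ) = 0 := le_antisymm (not_lt.1 hcon) (Nat.cast_nonneg _)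
    rw [h3, mul_zero] at hX1
    linarith
  have hXne : X.Nonempty := by
    rw [← Finset.card_pos]
    exact_mod_cast hXpos
  set c : ℝ → ℤ := fun x => ⌊a * x / r⌋ with hc
  set S : Finset ℤ := X.image c with hS
  have hSne : S.Nonempty := hXne.image _
  have hS0 : (0 : ℝ) < #S := by exact_mod_cast hSne.card_pos
  -- fibres
  have hfib : ∀ k : ℤ, ((X.filter (fun x => c x = k)).card : ℝ) ≤ K ^ 2 := by
    intro k
    have h1 := card_sep (l := K * r) (P := X.filter (fun x => c x = k)) hr (by positivity)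
      (fun x hx y hy hxy => hX x (Finset.mem_filter.1 hx).1 y (Finset.mem_filter.1 hy).1 hxy)
      (by
        intro x hx y hy
        have h2 : c x = c y := (Finset.mem_filter.1 hx).2.trans (Finset.mem_filter.1 hy).2.symm
        have h4 := Int.abs_sub_lt_one_of_floor_eq_floor h2
        rw [← sub_div, abs_div, abs_of_pos hr, div_lt_one hr, ← mul_sub, abs_mul] at h4
        calc |x - y| ≤ K * |a| * |x - y| := le_mul_of_one_le_left (abs_nonneg _) ha1
          _ = K * (|a| * |x - y|) := by ring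
          _ ≤ K * r := by gcongr)
    refine h1.trans ?_
    rw [mul_div_assoc, div_self hr.ne', mul_one]
    nlinarith
  have hXS : (X.card : ℝ) ≤ K ^ 2 * #S := card_le_mul_image _ _ _ hfib
  have hnS : n ≤ K ^ 3 * #S := by
    calc n ≤ K * X.card := hX1
      _ ≤ K * (K ^ 2 * #S) := by gcongr
      _ = _ := by ring
  have hSX : (#S : ℝ) ≤ K * n := by
    refine le_trans ?_ hX2
    exact_mod_cast Finset.card_image_le
  -- the difference set
  obtain ⟨Z, hZ1, hZ2⟩ := hcov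
  have hdiff : (#(S - S) : ℝ) ≤ K ^ 2 * n := by
    have hsub : S - S ⊆ Z.biUnion (fun w => Finset.Icc (⌊w / r⌋ - 3) (⌊w / r⌋ + 3)) := by
      intro k hk
      obtain ⟨k1, hk1, k2, hk2, rfl⟩ := Finset.mem_sub.1 hk
      obtain ⟨x, hx, rfl⟩ := Finset.mem_image.1 hk1
      obtain ⟨y, hy, rfl⟩ := Finset.mem_image.1 hk2
      obtain ⟨w, hw, hd⟩ := hZ2 _ ⟨x, hx, y, hy, rfl⟩
      refine Finset.mem_biUnion.2 ⟨w, hw, ?_⟩
      rw [Real.dist_eq] at hd
      have f1 := Int.floor_le (a * x / r)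
      have f2 := Int.lt_floor_add_one (a * x / r)
      have f3 := Int.floor_le (a * y / r)
      have f4 := Int.lt_floor_add_one (a * y / r)
      have f5 := Int.floor_le (w / r)
      have f6 := Int.lt_floor_add_one (w / r)
      have h2 : |(a * x - a * y) / r - w / r| ≤ 1 := by
        rw [← sub_div, abs_div, abs_of_pos hr, div_le_one hr]
        exact hd
      rw [sub_div, abs_le] at h2
      rw [Finset.mem_Icc]
      constructor
      · have : ((⌊w / r⌋ - 3 : ℤ) : ℝ) < ((⌊a * x / r⌋ - ⌊a * y / r⌋ : ℤ) : ℝ) + 1 := by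
          push_cast
          linarith [h2.1]
        have h3 : ⌊w / r⌋ - 3 < (⌊a * x / r⌋ - ⌊a * y / r⌋) + 1 := by exact_mod_cast this
        show ⌊w / r⌋ - 3 ≤ ⌊a * x / r⌋ - ⌊a * y / r⌋
        omega
      · have : ((⌊a * x / r⌋ - ⌊a * y / r⌋ : ℤ) : ℝ) < ((⌊w / r⌋ + 3 : ℤ) : ℝ) + 1 := by
          push_cast
          linarith [h2.2]
        have h3 : (⌊a * x / r⌋ - ⌊a * y / r⌋) < ⌊w / r⌋ + 3 + 1 := by exact_mod_cast this
        show ⌊a * x / r⌋ - ⌊a * y / r⌋ ≤ ⌊w / r⌋ + 3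
        omega
    have h2 : (#(S - S) : ℝ) ≤ Z.card * 7 := by
      have h3 : #(S - S) ≤ ∑ w ∈ Z, (Finset.Icc (⌊w / r⌋ - 3) (⌊w / r⌋ + 3)).card :=
        (Finset.card_le_card hsub).trans Finset.card_biUnion_le
      have h4 : ∑ w ∈ Z, (Finset.Icc (⌊w / r⌋ - 3) (⌊w / r⌋ + 3)).card = Z.card * 7 := by
        rw [Finset.sum_congr rfl (fun w _ => show (Finset.Icc (⌊w / r⌋ - 3) (⌊w / r⌋ + 3)).card = 7 by
          rw [Int.card_Icc]
          omega)]
        rw [Finset.sum_const, smul_eq_mul]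
      rw [h4] at h3
      exact_mod_cast h3
    calc (#(S - S) : ℝ) ≤ Z.card * 7 := h2
      _ ≤ (K * n) * K := by
          gcongr
          linarith
      _ = _ := by ring
  have hratio : (#(S - S) : ℝ) / #S ≤ K ^ 5 := by
    rw [div_le_iff₀ hS0]
    calc (#(S - S) : ℝ) ≤ K ^ 2 * n := hdiff
      _ ≤ K ^ 2 * (K ^ 3 * #S) := by gcongr
      _ = _ := by ring
  have hpl : (#(2 • S - 2 • S) : ℝ) ≤ K ^ 21 * n := by
    calc (#(2 • S - 2 • S) : ℝ) ≤ ((#(S - S) : ℝ) / #S) ^ 4 * #S := plue S hSne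
      _ ≤ (K ^ 5) ^ 4 * (K * n) := by gcongr
      _ = _ := by ring
  -- the covering
  obtain ⟨M, hM1, hM2⟩ : ∃ M : ℕ, 2 * K + 1 ≤ M ∧ (M : ℝ) ≤ 2 * K + 2 :=
    ⟨⌈2 * K + 1⌉₊, Nat.le_ceil _, by
      have := (Nat.ceil_lt_add_one (by positivity : (0 : ℝ) ≤ 2 * K + 1)).le
      linarith⟩
  refine ⟨((2 • S - 2 • S) ×ˢ Finset.Icc (-(M : ℤ)) M).image
    (fun q => (q.1 : ℝ) * r / a + (q.2 : ℝ) * r), ?_, ?_⟩
  · have h1 : ((((2 • S - 2 • S) ×ˢ Finset.Icc (-(M : ℤ)) M).image
        (fun q => (q.1 : ℝ) * r / a + (q.2 : ℝ) * r)).card : ℝ)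
        ≤ #(2 • S - 2 • S) * (2 * M + 1) := by
      have h2 : (((2 • S - 2 • S) ×ˢ Finset.Icc (-(M : ℤ)) M).image
        (fun q => (q.1 : ℝ) * r / a + (q.2 : ℝ) * r)).card ≤ #(2 • S - 2 • S) * (2 * M + 1) := by
        refine Finset.card_image_le.trans ?_
        rw [Finset.card_product, Int.card_Icc]
        refine Nat.mul_le_mul_left _ ?_
        omega
      exact_mod_cast h2
    calc _ ≤ (#(2 • S - 2 • S) : ℝ) * (2 * M + 1) := h1
      _ ≤ (K ^ 21 * n) * K ^ 2 := by
          gcongr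
          nlinarith
      _ = _ := by ring
  · rintro z ⟨x, hx, y, hy, u, hu, v, hv, rfl⟩
    have hmem : c x + c y - (c u + c v) ∈ 2 • S - 2 • S := by
      rw [two_nsmul]
      exact Finset.sub_mem_sub
        (Finset.add_mem_add (Finset.mem_image_of_mem _ hx) (Finset.mem_image_of_mem _ hy))
        (Finset.add_mem_add (Finset.mem_image_of_mem _ hu) (Finset.mem_image_of_mem _ hv))
    set k : ℤ := c x + c y - (c u + c v) with hk
    set t : ℝ := (x + y - u - v - k * r / a) / r with ht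
    have hkey : |a| * |t| ≤ 2 := by
      have f1 := Int.floor_le (a * x / r)
      have f2 := Int.lt_floor_add_one (a * x / r)
      have f3 := Int.floor_le (a * y / r)
      have f4 := Int.lt_floor_add_one (a * y / r)
      have g1 := Int.floor_le (a * u / r)
      have g2 := Int.lt_floor_add_one (a * u / r)
      have g3 := Int.floor_le (a * v / r)
      have g4 := Int.lt_floor_add_one (a * v / r)
      have e1 : a * t = a * x / r + a * y / r - a * u / r - a * v / r - k := by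
        rw [ht]
        field_simp
      have e2 : (k : ℝ) = (⌊a * x / r⌋ : ℝ) + ⌊a * y / r⌋ - (⌊a * u / r⌋ + ⌊a * v / r⌋) := by
        rw [hk, hc]
        push_cast
        ring
      rw [← abs_mul, e1, e2, abs_le]
      constructor <;> linarith
    have ht2 : |t| ≤ 2 * K := by
      calc |t| ≤ K * |a| * |t| := le_mul_of_one_le_left (abs_nonneg _) ha1
        _ = K * (|a| * |t|) := by ring
        _ ≤ K * 2 := by gcongr
        _ = _ := by ring
    rw [abs_le] at ht2
    have f1 := Int.floor_le t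
    have f2 := Int.lt_floor_add_one t
    refine ⟨(k : ℝ) * r / a + (⌊t⌋ : ℝ) * r, Finset.mem_image.2 ⟨(k, ⌊t⌋),
      Finset.mem_product.2 ⟨hmem, ?_⟩, rfl⟩, ?_⟩
    · rw [Finset.mem_Icc]
      constructor
      · have : ((-(M : ℤ) : ℤ) : ℝ) ≤ (⌊t⌋ : ℝ) := by
          push_cast
          linarith
        exact_mod_cast this
      · have : ((⌊t⌋ : ℤ) : ℝ) ≤ ((M : ℤ) : ℝ) := by
          push_cast
          linarith
        exact_mod_cast this
    · rw [Real.dist_eq]
      have e3 : x + y - u - v - ((k : ℝ) * r / a + (⌊t⌋ : ℝ) * r) = (t - ⌊t⌋) * r := by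
        have : t * r = x + y - u - v - k * r / a := by
          rw [ht]
          field_simp
        rw [sub_mul, this]
        ring
      rw [e3, abs_mul, abs_of_pos hr]
      have h4 : |t - ⌊t⌋| ≤ 1 := by
        rw [abs_le]
        constructor <;> linarith
      nlinarith

end Vale.Agent.P065.H17
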